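import Vale.Agent.P144Z.I2.Flow
import Vale.Agent.P144Z.H1.Main

/-!
The generating function of the sources in terms of the constants of the flow.
-/

namespace Vale.Agent.P144Z

open Finset Matrix A1 I2 H1

namespace R9

variable (g : Geo)

theorem exp_Hin' (q : Par) (n : g.Cfg) : NormedSpace.exp (∑ X, g.Hin q X) n =
    Real.exp (uint q n) • NormedSpace.exp (∑ k, (g.src k).O (g.see (g.src k).y n) • g.bv k) := by
  rw [exp_Hin, exp_sum_sq _ _ fun k => smul_sq (bv_sq g k) _]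

theorem gen_eq {L : ℕ} {q : Par} {N : ℕ} (hc : g.Conv L q N) :
    evG (g.exM (covI (Dm g.A))) (NormedSpace.exp (∑ y, (g.init q).v y) *
      g.E0 (q.x * q.Z) (NormedSpace.exp (∑ X, g.Hin q X))) =
      NormedSpace.exp (pre g L q N + ∑ U, g.last L q N U) := by
  rw [flow_eq g L q N hc.init hc.step, exp_add']
  exact congrArg _ hc.last.symm

theorem sum_eq {q : Par} (hZ : q.Z ≠ 0) :
    ∑ n, (cw n * wt g.A q.x n * Real.exp (uint q n)) •
        NormedSpace.exp (∑ k, (g.src k).O (g.see (g.src k).y n) • g.bv k) =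
      (q.Z ^ (2 * g.M ^ 2))⁻¹ • g.Om (NormedSpace.exp (∑ x, (g.init q).v x) *
        g.E0 (q.x * q.Z) (NormedSpace.exp (∑ X, g.Hin q X))) := by
  rw [← sum_cw_eq g q hZ _ (noF_exp_Hin g q)]
  simp only [exp_Hin', smul_smul]

/-- The sign change of the fields. -/
noncomputable abbrev fl : g.E →ₗ[ℝ] g.E := evMap (scF g (-1))

theorem fl_exp (F : g.E) : fl g (NormedSpace.exp F) = NormedSpace.exp (fl g F) :=
  hom_exp _ (evMap_one _) (evMap_mul _) F

theorem fl_edge (x : g.P) (i : Fin 2) : fl g (g.edge x i) = g.edge x i := by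
  rw [scF_edge]; simp

theorem fl_site (x : g.P) : fl g (g.site x) = g.site x := by
  rw [site_eq, map_add, evMap_pp, evMap_pp]
  simp only [scF_ex, pp_smul_smul, neg_mul_neg, one_mul, one_smul]

theorem fl_O1 (x : g.P) : fl g (g.O1 x) = g.O1 x := by
  simp only [Geo.O1, map_smul, map_sum, map_add, fl_edge]

theorem fl_O2 (x : g.P) : fl g (g.O2 x) = g.O2 x := by
  simp only [Geo.O2, map_smul, map_add, fl_O1, fl_site]

theorem fl_E0 (w : ℝ) (F : g.Cfg → g.E) (hF : ∀ n, g.noF (F n) = F n) :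
    fl g (g.E0 w F) = g.E0 w F := by
  rw [E0_apply, map_sum]
  refine Finset.sum_congr rfl fun n _ => ?_
  rw [evMap_mul, scF_src g _ (hF n), evMap_prod]
  refine congrArg _ (Finset.prod_congr rfl fun e _ => ?_)
  split_ifs
  · rw [map_smul, fl_edge]
  · rw [map_sub, map_smul, fl_edge, evMap_one]

theorem fl_last {L : ℕ} {q : Par} {N : ℕ} (hc : g.Conv L q N) :
    fl g (∑ U, g.last L q N U) = ∑ U, g.last L q N U := by
  have h1 := congrArg (fl g) (gen_eq g hc)
  have h2 := evG_scF g (covI_anti (C.Dm_anti g.A)) (c := -1) (d := 1) (by norm_num)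
  simp only [one_smul] at h2
  have h3 : fl g (∑ y, (g.init q).v y) = ∑ y, (g.init q).v y := by
    simp only [Geo.init, map_sum, map_add, map_smul, fl_O1, fl_O2]
  rw [← h2, evMap_mul, fl_exp, fl_exp, h3, fl_E0 g _ _ (noF_exp_Hin g q), gen_eq g hc] at h1
  have h4 := exp_ev_injective h1
  rw [map_add, scF_src g _ (noF_pre g L q N)] at h4
  exact (add_left_cancel h4).symm

theorem pS_del {X : g.E} (hX : fl g X = X) (z : Tor g.M × Fin 4 → ℝ) :
    ExteriorAlgebra.map (pS g) (del (g.ex z) (Ev.val X)) = 0 := by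
  have h1 := del_map (scF g (-1)) (-g.ex z) (g.ex z) (mem_loc_univ (Ev.val X)) fun s _ => by
    rw [ex_dot, scF_inl, smul_dotProduct, ← ex_dot, single_one_dotProduct]; simp
  rw [← val_evMap, hX] at h1
  have h2 := congrArg (ExteriorAlgebra.map (pS g)) h1
  rw [I2.map_map, pS_scF, del_neg_left, map_neg, eq_neg_iff_add_eq_zero, ← two_smul ℝ] at h2
  exact (smul_eq_zero.1 h2).resolve_left two_ne_zero

theorem dz_exp {X : g.E} (hX : fl g X = X) :
    g.dz (NormedSpace.exp X) = g.dz X * NormedSpace.exp (g.noF X) := by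
  apply Ev.val_injective
  rw [val_dz, del_exp, del_mul, del_exp, map_add, map_mul, map_mul, map_mul, pS_del g hX, zero_mul,
    mul_zero, add_zero, map_mul, val_dz, ← noF_exp, val_noF]

theorem dz_src {c : g.E} (hc : g.noF c = c) : g.dz c = 0 := by
  have hl : Ev.val c ∈ loc (Set.range (Sum.inr : _ → g.S)) := hc ▸ noF_loc g c
  apply Ev.val_injective
  rw [val_dz, del_eq_zero (g := g.ex (zm g.M 0)) hl, map_zero, map_zero, map_zero]
  rintro _ ⟨k, rfl⟩
  rfl

theorem dz_add (F G : g.E) : g.dz (F + G) = g.dz F + g.dz G := by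
  simp only [Geo.dz, map_add]

theorem dz_sum {ι : Type} (s : Finset ι) (F : ι → g.E) :
    g.dz (∑ i ∈ s, F i) = ∑ i ∈ s, g.dz (F i) := by
  simp only [Geo.dz, map_sum]

end R9

namespace Geo

open R9

variable {g : Geo}

theorem sum_step (s : g.St) (j ℓ ℓ' : ℕ) : ∑ X, (g.step j ℓ ℓ' 0 s).H X =
    ∑ U, g.intg ℓ ℓ' s U - ∑ U, g.noF (g.intg ℓ ℓ' s U) := by
  rw [I2.sum_step]
  simp

theorem tot_eq_cs (L : ℕ) (q : Par) (N : ℕ) : g.tot L q N =
    ∑ j ∈ range (N + 1), ∑ U, g.cs L q j U + ∑ U, g.noF (g.last L q N U) := by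
  rw [Finset.sum_range_succ', add_comm (∑ j ∈ range N, _)]
  rfl

/-- The generating function of the sources, when the operator is invertible. -/
theorem gen_inv (hg : g.Ok) {L : ℕ} {q : Par} (hZ : q.Z ≠ 0) {N : ℕ} (hc : g.Conv L q N)
    (hD : ∀ v, Dm g.A *ᵥ v = 0 → v = 0) :
    ∑ n, (cw n * wt g.A q.x n * Real.exp (uint q n)) •
        NormedSpace.exp (∑ k, (g.src k).O (g.see (g.src k).y n) • g.bv k) =
      ((q.Z ^ (2 * g.M ^ 2))⁻¹ * Zw par0 g.A 1) • NormedSpace.exp (g.tot L q N) := by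
  have _ := hg
  rw [sum_eq g hZ, Om_inv g hD, gen_eq g hc, noF_exp, map_add, noF_pre, tot_eq, smul_smul]

/-- The same in the periodic sector. -/
theorem gen_per (hg : g.Ok) {L : ℕ} {q : Par} (hZ : q.Z ≠ 0) {N : ℕ} (hc : g.Conv L q N)
    (hA : g.A = 1) :
    ∑ n, (cw n * wt g.A q.x n * Real.exp (uint q n)) •
        NormedSpace.exp (∑ k, (g.src k).O (g.see (g.src k).y n) • g.bv k) =
      ((q.Z ^ (2 * g.M ^ 2))⁻¹ * kap g.M) •
        ((∑ U, g.dz (g.last L q N U)) * NormedSpace.exp (g.tot L q N)) := by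
  have _ := hg
  rw [sum_eq g hZ, Om_per g hA, gen_eq g hc, dz_exp g (by
    rw [map_add, scF_src g _ (noF_pre g L q N), fl_last g hc]), dz_add, dz_src g (noF_pre g L q N),
    zero_add, dz_sum, map_add, noF_pre, tot_eq, smul_smul]

end Geo

end Vale.Agent.P144Z
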